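import Mathlib

/-! Basic sums over initial segments of `Fin m`, the pair-sign lemma, greedy rounding. -/

namespace Vale.Agent.Lib.P262.FT

open Finset

section psum
variable {A : Type*} {m : ℕ}

/-- Sum of `f i` over the indices `i < p`. -/
def psum [AddCommMonoid A] (f : Fin m → A) (p : ℕ) : A :=
  ∑ i : Fin m, if (i : ℕ) < p then f i else 0

lemma psum_congr [AddCommMonoid A] {f g : Fin m → A} {p : ℕ} (h : ∀ i : Fin m, (i : ℕ) < p → f i = g i) :
    psum f p = psum g p := by
  unfold psum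
  refine Finset.sum_congr rfl fun i _ => ?_
  split_ifs with hi
  · exact h i hi
  · rfl

@[simp] lemma psum_zero_right [AddCommMonoid A] (f : Fin m → A) : psum f 0 = 0 := by
  simp [psum]

lemma psum_succ [AddCommMonoid A] (f : Fin m → A) {p : ℕ} (h : p < m) :
    psum f (p + 1) = psum f p + f ⟨p, h⟩ := by
  unfold psum
  have : ∀ i : Fin m, (if (i : ℕ) < p + 1 then f i else 0)
      = (if (i : ℕ) < p then f i else 0) + (if i = ⟨p, h⟩ then f i else 0) := by
    intro i
    by_cases h1 : (i : ℕ) < p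
    · have h2 : (i : ℕ) < p + 1 := by omega
      have h3 : i ≠ ⟨p, h⟩ := by
        intro h4; rw [h4] at h1; simp at h1
      simp [h1, h2, h3]
    · by_cases h2 : (i : ℕ) = p
      · have h3 : i = ⟨p, h⟩ := Fin.ext h2
        simp [h3]
      · have h3 : ¬ (i : ℕ) < p + 1 := by omega
        have h4 : i ≠ ⟨p, h⟩ := by
          intro h5; rw [h5] at h2; simp at h2
        simp [h1, h3, h4]
  simp_rw [this]
  rw [Finset.sum_add_distrib]
  simp

lemma psum_ge [AddCommMonoid A] (f : Fin m → A) {p : ℕ} (h : m ≤ p) : psum f p = ∑ i, f i := by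
  unfold psum
  refine Finset.sum_congr rfl fun i _ => ?_
  rw [if_pos (lt_of_lt_of_le i.2 h)]

lemma psum_succ_ge [AddCommMonoid A] (f : Fin m → A) {p : ℕ} (h : m ≤ p) :
    psum f (p + 1) = psum f p := by
  rw [psum_ge f h, psum_ge f (by omega)]

lemma psum_add [AddCommMonoid A] (f g : Fin m → A) (p : ℕ) :
    psum (fun i => f i + g i) p = psum f p + psum g p := by
  unfold psum
  rw [← Finset.sum_add_distrib]
  refine Finset.sum_congr rfl fun i _ => ?_
  split_ifs <;> simp

lemma psum_sub [AddCommGroup A] (f g : Fin m → A) (p : ℕ) :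
    psum (fun i => f i - g i) p = psum f p - psum g p := by
  unfold psum
  rw [← Finset.sum_sub_distrib]
  refine Finset.sum_congr rfl fun i _ => ?_
  split_ifs <;> simp

lemma psum_smul {E : Type*} [AddCommGroup E] [Module ℝ E] (c : ℝ) (f : Fin m → E) (p : ℕ) :
    psum (fun i => c • f i) p = c • psum f p := by
  unfold psum
  rw [Finset.smul_sum]
  refine Finset.sum_congr rfl fun i _ => ?_
  split_ifs <;> simp

lemma psum_mul (c : ℝ) (f : Fin m → ℝ) (p : ℕ) :
    psum (fun i => c * f i) p = c * psum f p := by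
  unfold psum
  rw [Finset.mul_sum]
  refine Finset.sum_congr rfl fun i _ => ?_
  split_ifs <;> simp

lemma psum_le_psum {f g : Fin m → ℝ} {p : ℕ} (h : ∀ i : Fin m, (i : ℕ) < p → f i ≤ g i) :
    psum f p ≤ psum g p := by
  unfold psum
  refine Finset.sum_le_sum fun i _ => ?_
  split_ifs with hi
  · exact h i hi
  · exact le_rfl

lemma psum_nonneg {f : Fin m → ℝ} {p : ℕ} (h : ∀ i : Fin m, (i : ℕ) < p → 0 ≤ f i) :
    0 ≤ psum f p := by
  have := psum_le_psum (f := fun _ => 0) (g := f) (p := p) h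
  simpa [psum] using this

/-- Extending a bound from `q ≤ K` to all `p`, when the terms with index `≥ K` are dominated. -/
lemma bal_of_split {f g : Fin m → ℝ} {K : ℕ} {c : ℝ}
    (hfast : ∀ i : Fin m, K ≤ (i : ℕ) → f i ≤ g i)
    (hslow : ∀ q, q ≤ K → psum f q ≤ psum g q + c) (p : ℕ) : psum f p ≤ psum g p + c := by
  by_cases hp : p ≤ K
  · exact hslow p hp
  · have hKp : K ≤ p := by omega
    induction p, hKp using Nat.le_induction with
    | base => exact hslow K le_rfl
    | succ p hKp ih =>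
      by_cases hpm : p < m
      · rw [psum_succ f hpm, psum_succ g hpm]
        have h1 := hfast ⟨p, hpm⟩ hKp
        by_cases hp' : p ≤ K
        · have : p = K := le_antisymm hp' hKp
          subst this
          have := hslow p le_rfl
          linarith
        · have := ih hp'
          linarith
      · rw [psum_succ_ge f (by omega), psum_succ_ge g (by omega)]
        by_cases hp' : p ≤ K
        · exact hslow p hp'
        · exact ih hp'

end psum

/-- A downward closed predicate on `Fin m` is an initial segment. -/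
lemma exists_cut {m : ℕ} (P : Fin m → Prop) (hP : ∀ i i' : Fin m, i ≤ i' → P i' → P i) :
    ∃ K : ℕ, K ≤ m ∧ ∀ i : Fin m, (i : ℕ) < K ↔ P i := by
  classical
  refine ⟨(univ.filter P).sup (fun i : Fin m => (i : ℕ) + 1), ?_, ?_⟩
  · refine Finset.sup_le fun i _ => ?_
    exact i.2
  · intro i
    constructor
    · intro h
      obtain ⟨i', hi', hlt⟩ := (Finset.lt_sup_iff).1 h
      have h1 : P i' := (Finset.mem_filter.1 hi').2
      exact hP i i' (by exact Fin.le_def.2 (by omega)) h1
    · intro h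
      have : (i : ℕ) + 1 ≤ (univ.filter P).sup (fun i : Fin m => (i : ℕ) + 1) :=
        Finset.le_sup (f := fun i : Fin m => (i : ℕ) + 1) (Finset.mem_filter.2 ⟨Finset.mem_univ i, h⟩)
      omega

section lists
variable {A : Type*} [AddCommMonoid A] {m : ℕ}

lemma sum_map_filter {α : Type*} (l : List α) (P : α → Prop) [DecidablePred P] (f : α → A) :
    ((l.filter (fun x => P x)).map f).sum = (l.map fun x => if P x then f x else 0).sum := by
  induction l with
  | nil => simp
  | cons a l ih =>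
    by_cases h : P a
    · simp [h, ih]
    · simp [h, ih]

lemma sum_filter_finRange (P : Fin m → Prop) [DecidablePred P] (f : Fin m → A) :
    (((List.finRange m).filter (fun x => P x)).map f).sum = ∑ i, if P i then f i else 0 := by
  rw [sum_map_filter, Fin.sum_univ_def]

lemma length_filter_finRange (P : Fin m → Prop) [DecidablePred P] :
    ((List.finRange m).filter (fun x => P x)).length = ∑ i, if P i then 1 else 0 := by
  have := sum_filter_finRange (A := ℕ) P (fun _ => 1)
  rw [← this]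
  simp

end lists

section pairs
variable {E : Type*} [NormedAddCommGroup E] [InnerProductSpace ℝ E] {m : ℕ}

/-- Cost of the pairing of a list. -/
noncomputable def pcost (v : Fin m → E) : List (Fin m) → ℝ
  | [] => 0
  | [i] => (1 / 4) * ‖v i‖ ^ 2
  | i :: j :: r => (1 / 4) * ‖v i - v j‖ ^ 2 + pcost v r

lemma exists_sign (x w : E) : ∃ s : ℝ, (s = 1 ∨ s = -1) ∧ s * inner ℝ x w ≤ 0 := by
  by_cases h : 0 ≤ inner ℝ x w
  · exact ⟨-1, Or.inr rfl, by nlinarith⟩
  · exact ⟨1, Or.inl rfl, by push Not at h; linarith⟩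

lemma norm_add_half_smul_sq (x w : E) (s : ℝ) (hs : s = 1 ∨ s = -1)
    (h : s * inner ℝ x w ≤ 0) :
    ‖x + (1 / 2 : ℝ) • (s • w)‖ ^ 2 ≤ ‖x‖ ^ 2 + (1 / 4) * ‖w‖ ^ 2 := by
  rw [norm_add_sq_real, inner_smul_right, inner_smul_right, norm_smul, norm_smul]
  have h1 : ‖s‖ = 1 := by
    rcases hs with rfl | rfl <;> simp
  rw [h1]
  have h2 : ‖(1 / 2 : ℝ)‖ = 1 / 2 := by norm_num
  rw [h2]
  nlinarith

lemma pair_signs (v : Fin m → E) : ∀ (L : List (Fin m)), L.Pairwise (· < ·) → ∀ x : E,
    ∃ ε : Fin m → ℝ, (∀ i, ε i = 1 ∨ ε i = -1) ∧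
      ‖x + (1 / 2 : ℝ) • (L.map fun i => ε i • v i).sum‖ ^ 2 ≤ ‖x‖ ^ 2 + pcost v L ∧
      ∀ q : ℕ, |((L.filter fun i : Fin m => (i : ℕ) < q).map ε).sum| ≤ 1
  | [], _, x => by
    refine ⟨fun _ => 1, fun _ => Or.inl rfl, ?_, ?_⟩
    · simp [pcost]
    · intro q; simp
  | [i], _, x => by
    obtain ⟨s, hs, hs'⟩ := exists_sign x (v i)
    refine ⟨fun _ => s, fun _ => hs, ?_, ?_⟩
    · simpa [pcost] using norm_add_half_smul_sq x (v i) s hs hs'
    · intro q
      have hs1 : |s| = 1 := by rcases hs with rfl | rfl <;> simp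
      by_cases h : (i : ℕ) < q <;> simp [h, hs1]
  | i :: j :: r, hL, x => by
    have hL' := List.pairwise_cons.1 hL
    have hL'' := List.pairwise_cons.1 hL'.2
    have hij : i < j := hL'.1 j (by simp)
    have hir : ∀ k ∈ r, i < k := fun k hk => hL'.1 k (by simp [hk])
    have hjr : ∀ k ∈ r, j < k := hL''.1
    obtain ⟨s, hs, hs'⟩ := exists_sign x (v i - v j)
    have hcost := norm_add_half_smul_sq x (v i - v j) s hs hs'
    obtain ⟨ε, hε, h1, h2⟩ := pair_signs v r hL''.2 (x + (1 / 2 : ℝ) • (s • (v i - v j)))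
    refine ⟨fun k => if k = i then s else if k = j then -s else ε k, ?_, ?_, ?_⟩
    · intro k
      dsimp only
      split_ifs
      · exact hs
      · rcases hs with rfl | rfl <;> simp
      · exact hε k
    · have hr : (r.map fun k => (if k = i then s else if k = j then -s else ε k) • v k)
          = r.map fun k => ε k • v k := by
        refine List.map_congr_left fun k hk => ?_
        have h3 : k ≠ i := (hir k hk).ne'
        have h4 : k ≠ j := (hjr k hk).ne'
        simp [h3, h4]
      have hne : j ≠ i := hij.ne'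
      simp only [List.map_cons, List.sum_cons, hr, if_true, if_neg hne]
      have heq : x + (1 / 2 : ℝ) • (s • v i + ((-s) • v j + (r.map fun k => ε k • v k).sum))
          = x + (1 / 2 : ℝ) • (s • (v i - v j)) + (1 / 2 : ℝ) • (r.map fun k => ε k • v k).sum := by
        simp only [smul_add, smul_sub, smul_neg, neg_smul]
        abel
      rw [heq]
      have : pcost v (i :: j :: r) = (1 / 4) * ‖v i - v j‖ ^ 2 + pcost v r := rfl
      rw [this]
      linarith
    · intro q
      have hs1 : |s| = 1 := by rcases hs with rfl | rfl <;> simp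
      have hr : ((r.filter fun k : Fin m => (k : ℕ) < q).map
            fun k => if k = i then s else if k = j then -s else ε k)
          = (r.filter fun k : Fin m => (k : ℕ) < q).map ε := by
        refine List.map_congr_left fun k hk => ?_
        have hk' := (List.mem_filter.1 hk).1
        have h3 : k ≠ i := (hir k hk').ne'
        have h4 : k ≠ j := (hjr k hk').ne'
        simp [h3, h4]
      have hne : j ≠ i := hij.ne'
      by_cases hjq : (j : ℕ) < q
      · have hiq : (i : ℕ) < q := lt_trans (Fin.lt_def.1 hij) hjq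
        simp only [List.filter_cons, hiq, hjq, decide_true, if_true, List.map_cons, if_neg hne,
          List.sum_cons, hr]
        have := h2 q
        simpa using this
      · have hnil : ∀ k ∈ r, ¬ (k : ℕ) < q := by
          intro k hk hkq
          exact hjq (lt_trans (Fin.lt_def.1 (hjr k hk)) hkq)
        have hfr : (r.filter fun k : Fin m => (k : ℕ) < q) = [] := by
          rw [List.filter_eq_nil_iff]
          intro k hk
          simpa using hnil k hk
        by_cases hiq : (i : ℕ) < q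
        · simp [hiq, hjq, hfr, hs1]
        · simp [hiq, hjq, hfr]

omit [InnerProductSpace ℝ E] in
lemma pcost_le_length (v : Fin m → E) (hv : ∀ i, ‖v i‖ ≤ 1) :
    ∀ L : List (Fin m), pcost v L ≤ (L.length : ℝ) / 2
  | [] => by simp [pcost]
  | [i] => by
    have h := hv i
    have h0 := norm_nonneg (v i)
    simp only [pcost, List.length_singleton, Nat.cast_one]
    nlinarith
  | i :: j :: r => by
    have h1 := pcost_le_length v hv r
    have h2 : ‖v i - v j‖ ≤ 2 := by
      calc ‖v i - v j‖ ≤ ‖v i‖ + ‖v j‖ := norm_sub_le _ _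
        _ ≤ 2 := by linarith [hv i, hv j]
    have h0 := norm_nonneg (v i - v j)
    have : pcost v (i :: j :: r) = (1 / 4) * ‖v i - v j‖ ^ 2 + pcost v r := rfl
    rw [this]
    simp only [List.length_cons]
    push_cast
    nlinarith

lemma exists_round (x w : E) (hw : ‖w‖ ≤ 1) (τ : ℝ) (hτ : 0 ≤ τ) :
    ∃ zz : ℕ, (zz = ⌊τ⌋₊ ∨ zz = ⌊τ⌋₊ + 1) ∧
      ‖x + ((zz : ℝ) - τ) • w‖ ^ 2 ≤ ‖x‖ ^ 2 + 1 / 4 := by
  set f := τ - ⌊τ⌋₊ with hf
  have hf0 : 0 ≤ f := by
    have := Nat.floor_le hτ
    linarith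
  have hf1 : f < 1 := by
    have := Nat.lt_floor_add_one τ
    linarith
  have expand : ∀ δ : ℝ, ‖x + δ • w‖ ^ 2 = ‖x‖ ^ 2 + 2 * δ * inner ℝ x w + δ ^ 2 * ‖w‖ ^ 2 := by
    intro δ
    rw [norm_add_sq_real, inner_smul_right, norm_smul, mul_pow, Real.norm_eq_abs, sq_abs]
    ring
  have hW : ‖w‖ ^ 2 ≤ 1 := by
    have := norm_nonneg w
    nlinarith
  have hW0 : 0 ≤ ‖w‖ ^ 2 := by positivity
  by_contra hcon
  push Not at hcon
  have h1 := hcon ⌊τ⌋₊ (Or.inl rfl)
  have h2 := hcon (⌊τ⌋₊ + 1) (Or.inr rfl)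
  have e1 : ((⌊τ⌋₊ : ℕ) : ℝ) - τ = -f := by rw [hf]; ring
  have e2 : (((⌊τ⌋₊ + 1 : ℕ) : ℕ) : ℝ) - τ = 1 - f := by
    push_cast
    rw [hf]; ring
  rw [e1, expand] at h1
  rw [e2, expand] at h2
  have key : (1 - f) * (2 * (-f) * inner ℝ x w + (-f) ^ 2 * ‖w‖ ^ 2)
      + f * (2 * (1 - f) * inner ℝ x w + (1 - f) ^ 2 * ‖w‖ ^ 2) = f * (1 - f) * ‖w‖ ^ 2 := by ring
  have h3 : f * (1 - f) * ‖w‖ ^ 2 ≤ 1 / 4 := by
    have h4 : f * (1 - f) ≤ 1 / 4 := by nlinarith [sq_nonneg (f - 1 / 2)]
    have h5 : 0 ≤ f * (1 - f) := mul_nonneg hf0 (by linarith)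
    nlinarith
  have h6 : (1 - f) * (2 * (-f) * inner ℝ x w + (-f) ^ 2 * ‖w‖ ^ 2) ≥ (1 - f) * (1 / 4) :=
    mul_le_mul_of_nonneg_left (by linarith) (by linarith)
  have h7 : f * (2 * (1 - f) * inner ℝ x w + (1 - f) ^ 2 * ‖w‖ ^ 2) ≥ f * (1 / 4) :=
    mul_le_mul_of_nonneg_left (by linarith) hf0
  -- strictness comes from one of the two weights being positive
  rcases eq_or_lt_of_le hf0 with hf00 | hf00
  · -- f = 0
    rw [← hf00] at h1
    have : ‖w‖ ^ 2 * 0 = 0 := by ring
    nlinarith
  · have h8 : f * (1 / 4) < f * (2 * (1 - f) * inner ℝ x w + (1 - f) ^ 2 * ‖w‖ ^ 2) :=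
      mul_lt_mul_of_pos_left (by linarith) hf00
    nlinarith

end pairs

end Vale.Agent.Lib.P262.FT
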