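import Vale.Agent.Lib.P262.FT.Node

/-! The few-types theorem: a dyadic refinement gives a word with all partial sums of squared
norm at most `(21/4) m`. -/

namespace Vale.Agent.Lib.P262.FT

open Finset

variable {E : Type*} [NormedAddCommGroup E] [InnerProductSpace ℝ E] {m : ℕ}

/-- The invariant of the dyadic refinement at depth `j`. -/
structure Grid (v : Fin m → E) (n : Fin m → ℕ) (j : ℕ) (C : ℝ) (y : ℕ → Fin m → ℕ) : Prop where
  start : y 0 = 0
  stop : y (2 ^ j) = n
  mono : ∀ k < 2 ^ j, ∀ i, y k i ≤ y (k + 1) i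
  window : ∀ k : ℕ, k ≤ 2 ^ j → ∀ i, 2 * 2 ^ j ≤ n i → |(y k i : ℝ) - ((k : ℝ) / 2 ^ j) * n i| ≤ 1
  bal : ∀ k < 2 ^ j, ∀ p, psum (fun i => (y (k + 1) i : ℝ) - y k i) p
    ≤ (2 / 2 ^ j) * psum (fun i => (n i : ℝ)) p + 1
  pot : ∀ k : ℕ, k ≤ 2 ^ j → ∀ p : ℕ, (∀ i : Fin m, n i < 4 * 2 ^ j → (i : ℕ) < p) →
    ‖cut v n ((k : ℝ) / 2 ^ j) (y k) p‖ ^ 2 ≤ C + (p : ℝ) / 4

lemma grid_zero (v : Fin m → E) (n : Fin m → ℕ) :
    Grid v n 0 0 (fun k => if k = 0 then 0 else n) := by
  refine ⟨by simp, by simp, ?_, ?_, ?_, ?_⟩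
  · intro k hk i
    have : k = 0 := by simpa using hk
    subst this
    simp
  · intro k hk i _
    have : k = 0 ∨ k = 1 := by simp at hk; omega
    rcases this with rfl | rfl <;> simp
  · intro k hk p
    have : k = 0 := by simpa using hk
    subst this
    simp only [zero_add, one_ne_zero, if_false, if_true, pow_zero]
    have h1 : psum (fun i => (n i : ℝ) - ((0 : Fin m → ℕ) i : ℝ)) p = psum (fun i => (n i : ℝ)) p := by
      refine psum_congr fun i _ => ?_
      simp
    rw [h1]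
    have h2 : 0 ≤ psum (fun i => (n i : ℝ)) p := psum_nonneg fun i _ => by positivity
    linarith
  · intro k hk p _
    have : k = 0 ∨ k = 1 := by simp at hk; omega
    have h2 : cut v n ((k : ℝ) / 2 ^ 0) (if k = 0 then 0 else n) p = 0 := by
      unfold cut
      unfold psum
      refine Finset.sum_eq_zero fun i _ => ?_
      rcases this with rfl | rfl <;> simp
    rw [h2]
    have h3 : (0 : ℝ) ≤ (p : ℝ) / 4 := by positivity
    simpa using h3

lemma grid_step (v : Fin m → E) (hv : ∀ i, ‖v i‖ ≤ 1) (n : Fin m → ℕ) (hn : Monotone n) (j : ℕ)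
    (C : ℝ) (y : ℕ → Fin m → ℕ) (G : Grid v n j C y) :
    ∃ y', Grid v n (j + 1) (C + Mj n j + Yj n j) y' := by
  have hnode : ∀ k < 2 ^ j, _ := fun k (hk : k < 2 ^ j) =>
    node v hv n hn j C (y k) (y (k + 1)) ((k : ℝ) / 2 ^ j) (((k + 1 : ℕ) : ℝ) / 2 ^ j)
      (((2 * k + 1 : ℕ) : ℝ) / 2 ^ (j + 1)) (by positivity) (by push_cast; ring)
      (by rw [pow_succ]; push_cast; field_simp; ring)
      (G.mono k hk) (fun i hi => G.window k hk.le i hi) (fun i hi => G.window (k + 1) hk i hi)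
      (G.bal k hk) (fun p hp => G.pot k hk.le p hp) (fun p hp => G.pot (k + 1) hk p hp)
  choose! Z hZ using hnode
  refine ⟨fun k => if k % 2 = 0 then y (k / 2) else Z (k / 2), ?_⟩
  have heven : ∀ k, (fun k => if k % 2 = 0 then y (k / 2) else Z (k / 2)) (2 * k) = y k := by
    intro k
    have h1 : 2 * k / 2 = k := by omega
    simp [h1]
  have hodd : ∀ k, (fun k => if k % 2 = 0 then y (k / 2) else Z (k / 2)) (2 * k + 1) = Z k := by
    intro k
    have h1 : (2 * k + 1) % 2 ≠ 0 := by omega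
    have h2 : (2 * k + 1) / 2 = k := by omega
    simp only [h1, h2, if_false]
  generalize (fun k => if k % 2 = 0 then y (k / 2) else Z (k / 2)) = y' at heven hodd
  have hreal1 : ∀ k : ℕ, (((2 * k : ℕ) : ℝ) / 2 ^ (j + 1)) = (k : ℝ) / 2 ^ j := by
    intro k
    rw [pow_succ]
    push_cast
    field_simp
  have hcases : ∀ k : ℕ, (∃ c, k = 2 * c) ∨ (∃ c, k = 2 * c + 1) := by
    intro k
    rcases Nat.even_or_odd' k with ⟨c, rfl | rfl⟩
    · exact Or.inl ⟨c, rfl⟩
    · exact Or.inr ⟨c, rfl⟩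
  have h2pow : 2 ^ (j + 1) = 2 * 2 ^ j := by rw [pow_succ]; ring
  refine ⟨?_, ?_, ?_, ?_, ?_, ?_⟩
  · have := heven 0
    simpa [G.start] using this
  · rw [h2pow, heven]
    exact G.stop
  · intro k hk i
    rcases hcases k with ⟨c, rfl⟩ | ⟨c, rfl⟩
    · have hc : c < 2 ^ j := by omega
      rw [heven, hodd]
      exact (hZ c hc).1 i
    · have hc : c < 2 ^ j := by omega
      have e : 2 * c + 1 + 1 = 2 * (c + 1) := by ring
      rw [e, heven, hodd]
      exact (hZ c hc).2.1 i
  · intro k hk i hi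
    rcases hcases k with ⟨c, rfl⟩ | ⟨c, rfl⟩
    · have hc : c ≤ 2 ^ j := by omega
      rw [heven, hreal1]
      refine G.window c hc i ?_
      have : 2 ^ (j + 1) = 2 * 2 ^ j := h2pow
      omega
    · have hc : c < 2 ^ j := by omega
      rw [hodd]
      exact (hZ c hc).2.2.1 i hi
  · intro k hk p
    rcases hcases k with ⟨c, rfl⟩ | ⟨c, rfl⟩
    · have hc : c < 2 ^ j := by omega
      rw [heven, hodd]
      exact (hZ c hc).2.2.2.1 p
    · have hc : c < 2 ^ j := by omega
      have e : 2 * c + 1 + 1 = 2 * (c + 1) := by ring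
      rw [e, heven, hodd]
      exact (hZ c hc).2.2.2.2.1 p
  · intro k hk p hp
    rcases hcases k with ⟨c, rfl⟩ | ⟨c, rfl⟩
    · have hc : c ≤ 2 ^ j := by omega
      rw [heven, hreal1]
      have h1 := G.pot c hc p (fun i hi => hp i (by rw [h2pow]; omega))
      have h2 := Mj_nonneg n j
      have h3 := Yj_nonneg n j
      linarith
    · have hc : c < 2 ^ j := by omega
      rw [hodd]
      exact (hZ c hc).2.2.2.2.2 p hp

lemma grid_all (v : Fin m → E) (hv : ∀ i, ‖v i‖ ≤ 1) (n : Fin m → ℕ) (hn : Monotone n) (J : ℕ) :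
    ∃ y, Grid v n J (∑ j ∈ range J, (Mj n j + Yj n j)) y := by
  induction J with
  | zero => exact ⟨_, by simpa using grid_zero v n⟩
  | succ J ih =>
    obtain ⟨y, G⟩ := ih
    obtain ⟨y', G'⟩ := grid_step v hv n hn J _ y G
    refine ⟨y', ?_⟩
    rw [Finset.sum_range_succ, ← add_assoc]
    exact G'

lemma inner_M (x J : ℕ) :
    ∑ j ∈ range J, (if (2 ^ j ≤ 2 * x ∧ x < 4 * 2 ^ j) then (1 : ℝ) else 0) ≤ 3 := by
  rw [Finset.sum_boole]
  set S := (range J).filter fun j => 2 ^ j ≤ 2 * x ∧ x < 4 * 2 ^ j with hS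
  by_cases hne : S.Nonempty
  · have hsub : S ⊆ Finset.Ico (S.min' hne) (S.min' hne + 3) := by
      intro j hj
      have h1 : S.min' hne ≤ j := Finset.min'_le _ _ hj
      have h2 : S.min' hne ∈ S := Finset.min'_mem _ _
      have h3 := (Finset.mem_filter.1 hj).2.1
      have h4 := (Finset.mem_filter.1 h2).2.2
      refine Finset.mem_Ico.2 ⟨h1, ?_⟩
      have h5 : 2 ^ j < 2 ^ (S.min' hne + 3) := by
        rw [pow_add]
        omega
      exact (Nat.pow_lt_pow_iff_right (by norm_num)).1 h5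
    have h6 := Finset.card_le_card hsub
    rw [Nat.card_Ico] at h6
    have h7 : S.card ≤ 3 := by omega
    exact_mod_cast h7
  · rw [Finset.not_nonempty_iff_eq_empty] at hne
    simp [hne]

lemma inner_Y (x J : ℕ) :
    (2 ^ J ≤ 2 * x → ∑ j ∈ range J, ((2 / 2 ^ j : ℝ) * if 2 * x < 2 ^ j then (x : ℝ) else 0) = 0) ∧
    (2 * x < 2 ^ J →
      ∑ j ∈ range J, ((2 / 2 ^ j : ℝ) * if 2 * x < 2 ^ j then (x : ℝ) else 0)
        + 2 * (2 * x / 2 ^ J) ≤ 2) := by
  induction J with
  | zero =>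
    constructor
    · intro _; simp
    · intro h
      have : x = 0 := by simp at h; omega
      subst this
      simp
  | succ J ih =>
    constructor
    · intro h
      refine Finset.sum_eq_zero fun j hj => ?_
      have hj' : j < J + 1 := Finset.mem_range.1 hj
      have h1 : 2 ^ j ≤ 2 ^ (J + 1) := Nat.pow_le_pow_right (by norm_num) (by omega)
      have h2 : ¬ 2 * x < 2 ^ j := by omega
      simp [h2]
    · intro h
      rw [Finset.sum_range_succ]
      by_cases h1 : 2 * x < 2 ^ J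
      · have h2 := ih.2 h1
        rw [if_pos h1]
        have h3 : (2 / 2 ^ J : ℝ) * x = 2 * x / 2 ^ J := by ring
        have h4 : (2 * (x : ℝ) / 2 ^ (J + 1)) = (2 * x / 2 ^ J) / 2 := by
          rw [pow_succ]
          field_simp
        rw [h3, h4]
        linarith
      · have h2 := ih.1 (not_lt.1 h1)
        rw [if_neg h1, h2]
        have h3 : (2 * (x : ℝ)) < 2 ^ (J + 1) := by exact_mod_cast h
        have h4 : (0 : ℝ) < 2 ^ (J + 1) := by positivity
        have h5 : 2 * x / 2 ^ (J + 1) < (1 : ℝ) := by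
          rw [div_lt_one h4]
          exact h3
        simp only [mul_zero, add_zero, zero_add]
        linarith

lemma inner_Y' (x J : ℕ) :
    ∑ j ∈ range J, ((2 / 2 ^ j : ℝ) * if 2 * x < 2 ^ j then (x : ℝ) else 0) ≤ 2 := by
  by_cases h : 2 ^ J ≤ 2 * x
  · rw [(inner_Y x J).1 h]
    norm_num
  · have h1 := (inner_Y x J).2 (not_le.1 h)
    have h2 : (0 : ℝ) ≤ 2 * (2 * x / 2 ^ J) := by positivity
    linarith

lemma sum_Mj_le (n : Fin m → ℕ) (J : ℕ) : ∑ j ∈ range J, Mj n j ≤ 3 * m := by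
  unfold Mj
  rw [Finset.sum_comm]
  calc _ ≤ ∑ _i : Fin m, (3 : ℝ) := Finset.sum_le_sum fun i _ => inner_M (n i) J
    _ = 3 * m := by simp; ring

lemma sum_Yj_le (n : Fin m → ℕ) (J : ℕ) : ∑ j ∈ range J, Yj n j ≤ 2 * m := by
  unfold Yj
  simp_rw [Finset.mul_sum]
  rw [Finset.sum_comm]
  calc _ ≤ ∑ _i : Fin m, (2 : ℝ) := Finset.sum_le_sum fun i _ => inner_Y' (n i) J
    _ = 2 * m := by simp; ring

lemma word_of_chain (y : ℕ → Fin m → ℕ) (hstart : y 0 = 0) (K : ℕ) :
    (∀ k < K, ∀ i, y k i ≤ y (k + 1) i) →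
    (∀ k < K, ∑ i, ((y (k + 1) i : ℝ) - y k i) < 2) →
    ∃ w : List (Fin m), (∀ i, w.count i = y K i) ∧
      ∀ t, ∃ k ≤ K, ∀ i, (w.take t).count i = y k i := by
  induction K with
  | zero =>
    intro _ _
    refine ⟨[], by simp [hstart], fun t => ⟨0, le_rfl, by simp [hstart]⟩⟩
  | succ K ih =>
    intro h1 h2
    obtain ⟨w, hw1, hw2⟩ := ih (fun k hk => h1 k (by omega)) (fun k hk => h2 k (by omega))
    have hmono := h1 K (by omega)
    have hsum := h2 K (by omega)
    have hnn : ∀ i, (0 : ℝ) ≤ (y (K + 1) i : ℝ) - y K i := by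
      intro i
      have : (y K i : ℝ) ≤ y (K + 1) i := by exact_mod_cast hmono i
      linarith
    by_cases heq : y (K + 1) = y K
    · refine ⟨w, fun i => by rw [heq, hw1], ?_⟩
      intro t
      obtain ⟨k, hk, hk'⟩ := hw2 t
      exact ⟨k, by omega, hk'⟩
    · obtain ⟨r, hr⟩ := Function.ne_iff.1 heq
      have hrlt : y K r < y (K + 1) r := lt_of_le_of_ne (hmono r) (Ne.symm hr)
      have hrge : (1 : ℝ) ≤ (y (K + 1) r : ℝ) - y K r := by
        have : (y K r : ℝ) + 1 ≤ y (K + 1) r := by exact_mod_cast hrlt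
        linarith
      have hother : ∀ i, i ≠ r → y (K + 1) i = y K i := by
        intro i hir
        have hsub : ({r, i} : Finset (Fin m)) ⊆ Finset.univ := Finset.subset_univ _
        have h3 := Finset.sum_le_sum_of_subset_of_nonneg
          (f := fun i : Fin m => (y (K + 1) i : ℝ) - y K i) hsub (fun k _ _ => hnn k)
        rw [Finset.sum_pair (Ne.symm hir)] at h3
        have h4 : (y (K + 1) i : ℝ) < y K i + 1 := by linarith
        have h5 : y (K + 1) i < y K i + 1 := by exact_mod_cast h4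
        exact le_antisymm (by omega) (hmono i)
      have hrone : y (K + 1) r = y K r + 1 := by
        have h3 := Finset.single_le_sum
          (f := fun i : Fin m => (y (K + 1) i : ℝ) - y K i) (fun k _ => hnn k) (Finset.mem_univ r)
        have h4 : (y (K + 1) r : ℝ) < y K r + 2 := by linarith
        have h5 : y (K + 1) r < y K r + 2 := by exact_mod_cast h4
        omega
      refine ⟨w ++ [r], ?_, ?_⟩
      · intro i
        rw [List.count_append, hw1]
        by_cases hir : i = r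
        · subst hir
          simp [hrone]
        · have : [r].count i = 0 := by
            simp [Ne.symm hir]
          rw [this, hother i hir]
          rfl
      · intro t
        by_cases ht : t ≤ w.length
        · rw [List.take_append_of_le_length ht]
          obtain ⟨k, hk, hk'⟩ := hw2 t
          exact ⟨k, by omega, hk'⟩
        · rw [List.take_of_length_le (by simp; omega)]
          refine ⟨K + 1, le_rfl, ?_⟩
          intro i
          rw [List.count_append, hw1]
          by_cases hir : i = r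
          · subst hir
            simp [hrone]
          · have : [r].count i = 0 := by
              simp [Ne.symm hir]
            rw [this, hother i hir]
            rfl

lemma few_types_sorted (v : Fin m → E) (hv : ∀ i, ‖v i‖ ≤ 1) (n : Fin m → ℕ) (hn : Monotone n)
    (h0 : ∑ i, (n i : ℝ) • v i = 0) :
    ∃ w : List (Fin m), (∀ i, w.count i = n i) ∧
      ∀ t, ‖∑ i, (((w.take t).count i : ℕ) : ℝ) • v i‖ ^ 2 ≤ (21 / 4) * m := by
  set N := ∑ i, n i with hN
  obtain ⟨J, hJ⟩ : ∃ J, 2 * N < 2 ^ J := ⟨2 * N, Nat.lt_two_pow_self⟩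
  obtain ⟨y, G⟩ := grid_all v hv n hn J
  have hstep : ∀ k < 2 ^ J, ∑ i, ((y (k + 1) i : ℝ) - y k i) < 2 := by
    intro k hk
    have h1 := G.bal k hk m
    rw [psum_ge _ le_rfl, psum_ge _ le_rfl] at h1
    have h2 : ∑ i, (n i : ℝ) = N := by rw [hN]; push_cast; rfl
    rw [h2] at h1
    have h3 : (2 * (N : ℝ)) < 2 ^ J := by exact_mod_cast hJ
    have h4 : (0 : ℝ) < 2 ^ J := by positivity
    have h5 : (2 / 2 ^ J : ℝ) * N < 1 := by
      rw [div_mul_eq_mul_div, div_lt_one h4]
      exact h3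
    linarith
  obtain ⟨w, hw1, hw2⟩ := word_of_chain y G.start (2 ^ J) G.mono hstep
  refine ⟨w, fun i => by rw [hw1, G.stop], ?_⟩
  intro t
  obtain ⟨k, hk, hk'⟩ := hw2 t
  have h1 := G.pot k hk m (fun i _ => i.2)
  have h2 : cut v n ((k : ℝ) / 2 ^ J) (y k) m = ∑ i, (((w.take t).count i : ℕ) : ℝ) • v i := by
    unfold cut
    rw [psum_ge _ le_rfl]
    simp_rw [sub_smul, Finset.sum_sub_distrib, mul_smul, ← Finset.smul_sum, h0, smul_zero, sub_zero]
    refine Finset.sum_congr rfl fun i _ => ?_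
    rw [hk']
  rw [h2] at h1
  have h3 : ∑ j ∈ range J, (Mj n j + Yj n j) ≤ 5 * m := by
    rw [Finset.sum_add_distrib]
    have := sum_Mj_le n J
    have := sum_Yj_le n J
    linarith
  linarith

/-- **The few-types theorem.** Zero-sum multisets of vectors with `m` distinct types in the unit
ball of an inner product space can be arranged with all partial sums of squared norm at most
`(21/4) m`, whatever the multiplicities. -/
theorem few_types {ι : Type*} [Fintype ι] [DecidableEq ι] (u : ι → E) (hu : ∀ i, ‖u i‖ ≤ 1)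
    (n : ι → ℕ) (h0 : ∑ i, (n i : ℝ) • u i = 0) :
    ∃ w : List ι, (∀ i, w.count i = n i) ∧
      ∀ t, ‖∑ i, (((w.take t).count i : ℕ) : ℝ) • u i‖ ^ 2 ≤ (21 / 4) * Fintype.card ι := by
  set m := Fintype.card ι with hm
  let e0 : Fin m ≃ ι := (Fintype.equivFin ι).symm
  let f : Fin m → ℕ := n ∘ e0
  let e : Fin m ≃ ι := (Tuple.sort f).trans e0
  have hmono : Monotone (n ∘ e) := Tuple.monotone_sort f
  have h0' : ∑ i, ((n ∘ e) i : ℝ) • (u ∘ e) i = 0 := by
    rw [← h0]
    exact Equiv.sum_comp e (fun i => (n i : ℝ) • u i)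
  obtain ⟨w, hw1, hw2⟩ := few_types_sorted (u ∘ e) (fun i => hu _) (n ∘ e) hmono h0'
  refine ⟨w.map e, ?_, ?_⟩
  · intro i
    have h1 := List.count_map_of_injective w e e.injective (e.symm i)
    rw [Equiv.apply_symm_apply] at h1
    rw [h1, hw1]
    simp
  · intro t
    have h1 := hw2 t
    have h2 : ∑ i, (((((w.map e).take t).count i : ℕ) : ℝ)) • u i
        = ∑ i, (((w.take t).count i : ℕ) : ℝ) • (u ∘ e) i := by
      rw [← Equiv.sum_comp e]
      refine Finset.sum_congr rfl fun i _ => ?_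
      rw [← List.map_take, List.count_map_of_injective _ e e.injective]
      rfl
    rw [h2]
    exact h1

end Vale.Agent.Lib.P262.FT
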