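import Vale.Agent.Lib.P262.FT.FewTypes

/-! List infrastructure: bounded initial sums, lifting permutations, conversion to `Equiv.Perm`. -/

namespace Vale.Agent.Lib.P262.FT

open Finset

lemma exists_perm_of_perm_map_aux {α β : Type*} (f : α → β) {L1 L2 : List β} (h : L1.Perm L2) :
    ∀ T : List α, T.map f = L2 → ∃ T' : List α, T'.Perm T ∧ T'.map f = L1 := by
  induction h with
  | nil => intro T hT; exact ⟨T, List.Perm.refl _, hT⟩
  | cons x _ ih =>
    intro T hT
    match T, hT with
    | t :: T0, hT =>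
      simp only [List.map_cons, List.cons.injEq] at hT
      obtain ⟨T1, h1, h2⟩ := ih T0 hT.2
      exact ⟨t :: T1, h1.cons t, by simp [h2, hT.1]⟩
  | swap x y l =>
    intro T hT
    match T, hT with
    | a :: b :: T0, hT =>
      simp only [List.map_cons, List.cons.injEq] at hT
      refine ⟨b :: a :: T0, List.Perm.swap _ _ _, ?_⟩
      simp [hT.1, hT.2.1, hT.2.2]
  | trans _ _ ih1 ih2 =>
    intro T hT
    obtain ⟨T2, h1, h2⟩ := ih2 T hT
    obtain ⟨T1, h3, h4⟩ := ih1 T2 h2
    exact ⟨T1, h3.trans h1, h4⟩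

/-- A permutation of `T.map f` comes from a permutation of `T`. -/
lemma exists_perm_of_perm_map {α β : Type*} (f : α → β) {L' : List β} {T : List α}
    (h : L'.Perm (T.map f)) : ∃ T' : List α, T'.Perm T ∧ T'.map f = L' :=
  exists_perm_of_perm_map_aux f h T rfl

variable {E : Type*} [NormedAddCommGroup E]

/-- All initial sums of `l` have norm at most `R`. -/
def InitBdd (l : List E) (R : ℝ) : Prop := ∀ k, ‖(l.take k).sum‖ ≤ R

lemma take_sum_ofFn {N : ℕ} (g : Fin N → E) (k : ℕ) (hk : k ≤ N) :
    ((List.ofFn g).take k).sum = psum g k := by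
  induction k with
  | zero => simp
  | succ k ih =>
    have hlen : k < (List.ofFn g).length := by simp; omega
    rw [List.sum_take_succ _ _ hlen, ih (by omega), psum_succ g (by omega)]
    simp

/-- Conversion of a rearrangement as a list to a permutation of the indices. -/
lemma exists_equiv_of_perm {N : ℕ} (v : Fin N → E) {L' : List E} (h : L'.Perm (List.ofFn v)) :
    ∃ π : Equiv.Perm (Fin N), ∀ k : ℕ, k ≤ N →
      ∑ i ∈ Finset.univ.filter (fun i : Fin N => (i : ℕ) < k), v (π i) = (L'.take k).sum := by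
  rw [List.ofFn_eq_map] at h
  obtain ⟨T, hT1, hT2⟩ := exists_perm_of_perm_map v h
  have hlen : T.length = N := by
    rw [hT1.length_eq]; simp
  have hnodup : T.Nodup := hT1.nodup_iff.2 (List.nodup_finRange N)
  let f : Fin N → Fin N := fun i => T.get (i.cast hlen.symm)
  have hf : Function.Injective f := by
    intro i j hij
    have := (List.nodup_iff_injective_get.1 hnodup) hij
    exact Fin.cast_injective _ this
  let π : Equiv.Perm (Fin N) := Equiv.ofBijective f (Finite.injective_iff_bijective.1 hf)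
  have hT : T = List.ofFn π := by
    apply List.ext_getElem
    · simp [hlen]
    · intro i h1 h2
      simp [π, f]
  refine ⟨π, fun k hk => ?_⟩
  rw [Finset.sum_filter, ← hT2, hT, List.map_ofFn]
  exact (take_sum_ofFn _ k hk).symm

lemma sum_map_eq_sum_count {ι F : Type*} [Fintype ι] [DecidableEq ι] [AddCommGroup F] [Module ℝ F]
    (l : List ι) (f : ι → F) : (l.map f).sum = ∑ i, ((l.count i : ℕ) : ℝ) • f i := by
  induction l with
  | nil => simp
  | cons a l ih =>
    simp only [List.map_cons, List.sum_cons, ih, List.count_cons]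
    push_cast
    simp_rw [add_smul]
    rw [Finset.sum_add_distrib, add_comm]
    congr 1
    rw [Finset.sum_eq_single a]
    · simp
    · intro b _ hb
      simp [Ne.symm hb]
    · simp

lemma few_types_of_map {F : Type*} [NormedAddCommGroup F] [InnerProductSpace ℝ F] {N : ℕ}
    {ι : Type*} [Fintype ι] [DecidableEq ι] (u : ι → F) (g : Fin N → ι)
    (hu : ∀ j, ‖u j‖ ≤ 1) (h0 : ∑ i, u (g i) = 0) :
    ∃ π : Equiv.Perm (Fin N), ∀ k : ℕ, k ≤ N →
      ‖∑ i ∈ Finset.univ.filter (fun i : Fin N => (i : ℕ) < k), u (g (π i))‖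
        ≤ √((21 / 4) * Fintype.card ι) := by
  let n : ι → ℕ := fun j => (Finset.univ.filter fun i => g i = j).card
  have hn0 : ∑ j, (n j : ℝ) • u j = 0 := by
    rw [← h0, ← Finset.sum_fiberwise Finset.univ g (fun i => u (g i))]
    refine Finset.sum_congr rfl fun j _ => ?_
    rw [Finset.sum_congr rfl (g := fun _ => u j), Finset.sum_const, Nat.cast_smul_eq_nsmul]
    intro i hi
    have : g i = j := (Finset.mem_filter.1 hi).2
    rw [this]
  obtain ⟨w, hw1, hw2⟩ := few_types u hu n hn0
  have hperm : w.Perm (List.ofFn g) := by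
    rw [List.perm_iff_count]
    intro j
    rw [hw1, List.ofFn_eq_map, List.count, List.countP_map, List.countP_eq_length_filter]
    have h1 := length_filter_finRange (fun i => g i = j)
    have h2 : (List.filter ((fun x => x == j) ∘ g) (List.finRange N))
        = List.filter (fun i => decide (g i = j)) (List.finRange N) := by
      congr 1
    rw [h2, h1]
    simp only [n, Finset.card_filter]
  have hL : (w.map u).Perm (List.ofFn (fun i => u (g i))) := by
    have h1 := hperm.map u
    rwa [List.map_ofFn] at h1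
  obtain ⟨π, hπ⟩ := exists_equiv_of_perm _ hL
  refine ⟨π, fun k hk => ?_⟩
  rw [hπ k hk, ← List.map_take, sum_map_eq_sum_count]
  exact Real.le_sqrt_of_sq_le (hw2 k)

/-- The few-types theorem for families indexed by `Fin N`. -/
theorem few_types_family {F : Type*} [NormedAddCommGroup F] [InnerProductSpace ℝ F] {N : ℕ}
    (v : Fin N → F) (hv : ∀ i, ‖v i‖ ≤ 1) (h0 : ∑ i, v i = 0) :
    ∃ π : Equiv.Perm (Fin N), ∀ k : ℕ, k ≤ N →
      ‖∑ i ∈ Finset.univ.filter (fun i : Fin N => (i : ℕ) < k), v (π i)‖
        ≤ √((21 / 4) * (Set.range v).ncard) := by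
  classical
  let _ : Fintype ↥(Set.range v) := Fintype.ofFinite _
  have hu : ∀ j : ↥(Set.range v), ‖(j : F)‖ ≤ 1 := by
    rintro ⟨_, i, rfl⟩
    exact hv i
  obtain ⟨π, hπ⟩ := few_types_of_map (ι := ↥(Set.range v)) (fun j => (j : F))
    (fun i => ⟨v i, i, rfl⟩) hu h0
  refine ⟨π, fun k hk => ?_⟩
  have h2 : Fintype.card ↥(Set.range v) = (Set.range v).ncard := by
    rw [← Nat.card_eq_fintype_card, Nat.card_coe_set_eq]
  have := hπ k hk
  rwa [h2] at this

end Vale.Agent.Lib.P262.FT
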