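import Vale.Agent.Lib.P262.FT.Basic

/-! One step of the dyadic refinement. -/

namespace Vale.Agent.Lib.P262.FT

open Finset

variable {E : Type*} [NormedAddCommGroup E] [InnerProductSpace ℝ E] {m : ℕ}

/-- The deviation sum over indices `< p`. -/
noncomputable def cut (v : Fin m → E) (n : Fin m → ℕ) (t : ℝ) (y : Fin m → ℕ) (p : ℕ) : E :=
  psum (fun i => ((y i : ℝ) - t * n i) • v i) p

omit [InnerProductSpace ℝ E] in
lemma norm_psum_le (f : Fin m → E) (g : Fin m → ℝ) (p : ℕ)
    (h : ∀ i : Fin m, (i : ℕ) < p → ‖f i‖ ≤ g i) : ‖psum f p‖ ≤ psum g p := by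
  unfold psum
  refine (norm_sum_le _ _).trans (Finset.sum_le_sum fun i _ => ?_)
  split_ifs with hi
  · exact h i hi
  · simp

lemma fast_round_aux (v : Fin m → E) (hv : ∀ i, ‖v i‖ ≤ 1) (n : Fin m → ℕ) (t : ℝ) (ht : 0 ≤ t)
    (z0 : Fin m → ℕ) (K : ℕ) (P : ℕ) (hP : K ≤ P) :
    ∃ z : Fin m → ℕ, (∀ i : Fin m, (i : ℕ) < K → z i = z0 i) ∧
      (∀ i : Fin m, K ≤ (i : ℕ) → z i = ⌊t * n i⌋₊ ∨ z i = ⌊t * n i⌋₊ + 1) ∧
      ∀ p, K ≤ p → p ≤ P → ‖cut v n t z p‖ ^ 2 ≤ ‖cut v n t z K‖ ^ 2 + ((p : ℝ) - K) / 4 := by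
  induction P, hP using Nat.le_induction with
  | base =>
    refine ⟨fun i => if (i : ℕ) < K then z0 i else ⌊t * n i⌋₊, ?_, ?_, ?_⟩
    · intro i hi
      simp [hi]
    · intro i hi
      left
      simp [not_lt.2 hi]
    · intro p h1 h2
      have : p = K := le_antisymm h2 h1
      subst this
      simp
  | succ P hKP ih =>
    obtain ⟨z, h1, h2, h3⟩ := ih
    by_cases hPm : P < m
    · obtain ⟨zz, hzz, hzz'⟩ := exists_round (cut v n t z P) (v ⟨P, hPm⟩) (hv _)
        (t * n ⟨P, hPm⟩) (by positivity)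
      have hcongr : ∀ p, p ≤ P → cut v n t (Function.update z ⟨P, hPm⟩ zz) p = cut v n t z p := by
        intro p hp
        unfold cut
        refine psum_congr fun i hi => ?_
        have : i ≠ ⟨P, hPm⟩ := by
          intro h
          rw [h] at hi
          simp at hi
          omega
        rw [Function.update_of_ne this]
      refine ⟨Function.update z ⟨P, hPm⟩ zz, ?_, ?_, ?_⟩
      · intro i hi
        have : i ≠ ⟨P, hPm⟩ := by
          intro h
          rw [h] at hi
          simp at hi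
          omega
        rw [Function.update_of_ne this]
        exact h1 i hi
      · intro i hi
        by_cases hiP : i = ⟨P, hPm⟩
        · subst hiP
          rw [Function.update_self]
          exact hzz
        · rw [Function.update_of_ne hiP]
          exact h2 i hi
      · intro p hp1 hp2
        rw [hcongr K hKP]
        by_cases hpP : p ≤ P
        · rw [hcongr p hpP]
          exact h3 p hp1 hpP
        · have hpe : p = P + 1 := by omega
          subst hpe
          have e1 : cut v n t (Function.update z ⟨P, hPm⟩ zz) (P + 1)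
              = cut v n t z P + ((zz : ℝ) - t * n ⟨P, hPm⟩) • v ⟨P, hPm⟩ := by
            rw [← hcongr P le_rfl]
            unfold cut
            rw [psum_succ _ hPm]
            simp
          rw [e1]
          have := h3 P hKP le_rfl
          push_cast
          linarith
    · refine ⟨z, h1, h2, ?_⟩
      intro p hp1 hp2
      by_cases hpP : p ≤ P
      · exact h3 p hp1 hpP
      · have hpe : p = P + 1 := by omega
        subst hpe
        have e1 : cut v n t z (P + 1) = cut v n t z P := psum_succ_ge _ (by omega)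
        rw [e1]
        have := h3 P hKP le_rfl
        push_cast
        linarith

lemma fast_round (v : Fin m → E) (hv : ∀ i, ‖v i‖ ≤ 1) (n : Fin m → ℕ) (t : ℝ) (ht : 0 ≤ t)
    (z0 : Fin m → ℕ) (K : ℕ) :
    ∃ z : Fin m → ℕ, (∀ i : Fin m, (i : ℕ) < K → z i = z0 i) ∧
      (∀ i : Fin m, K ≤ (i : ℕ) → z i = ⌊t * n i⌋₊ ∨ z i = ⌊t * n i⌋₊ + 1) ∧
      ∀ p, K ≤ p → ‖cut v n t z p‖ ^ 2 ≤ ‖cut v n t z K‖ ^ 2 + ((p : ℝ) - K) / 4 := by
  obtain ⟨z, h1, h2, h3⟩ := fast_round_aux v hv n t ht z0 K (max K m) (le_max_left _ _)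
  refine ⟨z, h1, h2, ?_⟩
  intro p hp
  by_cases hpP : p ≤ max K m
  · exact h3 p hp hpP
  · have hm : m ≤ max K m := le_max_right _ _
    have e1 : cut v n t z p = cut v n t z (max K m) := by
      unfold cut
      rw [psum_ge _ (by omega : m ≤ p), psum_ge _ hm]
    rw [e1]
    have := h3 _ (le_max_left _ _) le_rfl
    have h4 : ((max K m : ℕ) : ℝ) ≤ p := by
      exact_mod_cast (by omega : max K m ≤ p)
    linarith

/-- The number of coordinates of intermediate frequency at depth `j`. -/
noncomputable def Mj (n : Fin m → ℕ) (j : ℕ) : ℝ :=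
  ∑ i, if (2 ^ j ≤ 2 * n i ∧ n i < 4 * 2 ^ j) then 1 else 0

/-- The mass of coordinates of low frequency at depth `j`. -/
noncomputable def Yj (n : Fin m → ℕ) (j : ℕ) : ℝ :=
  (2 / 2 ^ j) * ∑ i, if 2 * n i < 2 ^ j then (n i : ℝ) else 0

lemma Mj_nonneg (n : Fin m → ℕ) (j : ℕ) : 0 ≤ Mj n j :=
  Finset.sum_nonneg fun i _ => by split_ifs <;> norm_num

lemma Yj_nonneg (n : Fin m → ℕ) (j : ℕ) : 0 ≤ Yj n j := by
  unfold Yj
  refine mul_nonneg (by positivity) (Finset.sum_nonneg fun i _ => ?_)
  split_ifs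
  · positivity
  · exact le_rfl

lemma parallelogram_half (A B : E) :
    ‖(1 / 2 : ℝ) • (A + B)‖ ^ 2 = (‖A‖ ^ 2 + ‖B‖ ^ 2) / 2 - (1 / 4) * ‖B - A‖ ^ 2 := by
  rw [norm_smul, mul_pow, norm_add_sq_real, norm_sub_sq_real, real_inner_comm A B]
  norm_num
  ring

lemma cut_mid (v : Fin m → E) (n : Fin m → ℕ) (s s' t : ℝ) (ht : t = (s + s') / 2)
    (a b z : Fin m → ℕ) (e : Fin m → ℝ) (K : ℕ)
    (hz : ∀ i : Fin m, (i : ℕ) < K → (z i : ℝ) = ((a i : ℝ) + b i + e i) / 2) :
    cut v n t z K = (1 / 2 : ℝ) • (cut v n s a K + cut v n s' b K)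
      + (1 / 2 : ℝ) • psum (fun i => e i • v i) K := by
  unfold cut
  rw [← psum_add, ← psum_smul, ← psum_smul, ← psum_add]
  refine psum_congr fun i hi => ?_
  rw [hz i hi, ht, smul_add, smul_smul, smul_smul, smul_smul, ← add_smul, ← add_smul]
  congr 1
  ring

/-- The cost estimate of one node. -/
lemma node_cost (v : Fin m → E) (hv : ∀ i, ‖v i‖ ≤ 1) (n : Fin m → ℕ) (j : ℕ)
    (K R : ℕ) (hK : ∀ i : Fin m, (i : ℕ) < K ↔ n i < 4 * 2 ^ j)
    (hR : ∀ i : Fin m, (i : ℕ) < R ↔ 2 * n i < 2 ^ j)
    (a b : Fin m → ℕ) (hab : ∀ i, a i ≤ b i) (s : ℝ)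
    (hbal : psum (fun i => (b i : ℝ) - a i) R ≤ (2 / 2 ^ j) * psum (fun i => (n i : ℝ)) R + 1) :
    pcost v ((List.finRange m).filter fun i : Fin m => (i : ℕ) < K ∧ Odd (a i + b i))
      - (1 / 4) * ‖cut v n (s + 1 / 2 ^ j) b K - cut v n s a K‖ ^ 2 ≤ Mj n j + Yj n j := by
  classical
  set L := (List.finRange m).filter fun i : Fin m => (i : ℕ) < K ∧ Odd (a i + b i) with hL
  have hYeq : Yj n j = (2 / 2 ^ j) * psum (fun i => (n i : ℝ)) R := by
    unfold Yj psum
    congr 1
    refine Finset.sum_congr rfl fun i _ => ?_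
    by_cases h : 2 * n i < 2 ^ j
    · rw [if_pos h, if_pos ((hR i).2 h)]
    · rw [if_neg h, if_neg (fun h' => h ((hR i).1 h'))]
  have hMnn := Mj_nonneg n j
  have hYnn := Yj_nonneg n j
  have hgap : 0 ≤ (1 / 4) * ‖cut v n (s + 1 / 2 ^ j) b K - cut v n s a K‖ ^ 2 := by positivity
  have hXnn : ∀ i : Fin m, (0 : ℝ) ≤ (b i : ℝ) - a i := by
    intro i
    have : (a i : ℝ) ≤ b i := by exact_mod_cast hab i
    linarith
  -- the length of the list
  have hlen : (L.length : ℝ) ≤ Mj n j + psum (fun i => (b i : ℝ) - a i) R := by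
    rw [hL, length_filter_finRange]
    unfold Mj psum
    push_cast
    rw [← Finset.sum_add_distrib]
    refine Finset.sum_le_sum fun i _ => ?_
    by_cases hP : (i : ℕ) < K ∧ Odd (a i + b i)
    · rw [if_pos hP]
      by_cases h2 : 2 ^ j ≤ 2 * n i
      · have h3 : 2 ^ j ≤ 2 * n i ∧ n i < 4 * 2 ^ j := ⟨h2, (hK i).1 hP.1⟩
        rw [if_pos h3]
        split_ifs
        · have := hXnn i
          linarith
        · norm_num
      · have h3 : (i : ℕ) < R := (hR i).2 (by omega)
        rw [if_pos h3]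
        have h4 : a i < b i := by
          refine lt_of_le_of_ne (hab i) ?_
          intro h5
          have := hP.2
          rw [← h5] at this
          exact (Nat.not_odd_iff_even.2 ⟨a i, rfl⟩) this
        have h5 : (a i : ℝ) + 1 ≤ b i := by exact_mod_cast h4
        split_ifs <;> linarith
    · rw [if_neg hP]
      have h3 : (0 : ℝ) ≤ if (2 ^ j ≤ 2 * n i ∧ n i < 4 * 2 ^ j) then 1 else 0 := by
        split_ifs <;> norm_num
      have h4 : (0 : ℝ) ≤ if (i : ℕ) < R then (b i : ℝ) - a i else 0 := by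
        split_ifs
        · exact hXnn i
        · exact le_rfl
      push_cast
      linarith
  have hX : psum (fun i => (b i : ℝ) - a i) R ≤ Yj n j + 1 := by rw [hYeq]; exact hbal
  have hcostlen := pcost_le_length v hv L
  by_cases hbig : 1 ≤ Mj n j + Yj n j
  · linarith
  · -- the degenerate case
    push Not at hbig
    have hM0 : ∀ i : Fin m, ¬ (2 ^ j ≤ 2 * n i ∧ n i < 4 * 2 ^ j) := by
      intro i hi
      have h1 : (1 : ℝ) ≤ Mj n j := by
        have h2 := Finset.single_le_sum (f := fun i : Fin m =>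
          if (2 ^ j ≤ 2 * n i ∧ n i < 4 * 2 ^ j) then (1 : ℝ) else 0)
          (fun i _ => by split_ifs <;> norm_num) (Finset.mem_univ i)
        simpa [hi, Mj] using h2
      linarith
    have hKR : ∀ i : Fin m, (i : ℕ) < K ↔ (i : ℕ) < R := by
      intro i
      constructor
      · intro h
        have h1 := (hK i).1 h
        have h2 := hM0 i
        refine (hR i).2 ?_
        by_contra h3
        exact h2 ⟨by omega, h1⟩
      · intro h
        have h1 := (hR i).1 h
        refine (hK i).2 ?_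
        have : 0 < 2 ^ j := by positivity
        omega
    have hpsumKR : ∀ f : Fin m → ℝ, psum f K = psum f R := by
      intro f
      unfold psum
      refine Finset.sum_congr rfl fun i _ => ?_
      simp only [hKR i]
    have hXlt : psum (fun i => (b i : ℝ) - a i) K < 2 := by
      rw [hpsumKR]; linarith
    have hlen2 : (L.length : ℝ) < 2 := by
      rw [← hpsumKR] at hlen
      have hM0' : Mj n j = 0 := by
        unfold Mj
        refine Finset.sum_eq_zero fun i _ => ?_
        rw [if_neg (hM0 i)]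
      linarith
    have hlen3 : L.length < 2 := by exact_mod_cast hlen2
    match hLform : L, hlen3 with
    | [], _ =>
      have : pcost v [] = 0 := rfl
      rw [this]
      linarith
    | [r], _ =>
      have hrP : (r : ℕ) < K ∧ Odd (a r + b r) := by
        have hrmem : r ∈ [r] := by simp
        rw [hL] at hrmem
        simpa using (List.mem_filter.1 hrmem).2
      have hterm : ∀ i : Fin m, (0 : ℝ) ≤ if (i : ℕ) < K then (b i : ℝ) - a i else 0 := by
        intro i
        split_ifs
        · exact hXnn i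
        · exact le_rfl
      have hrlt : a r < b r := by
        refine lt_of_le_of_ne (hab r) ?_
        intro h5
        have := hrP.2
        rw [← h5] at this
        exact (Nat.not_odd_iff_even.2 ⟨a r, rfl⟩) this
      have hrge : (1 : ℝ) ≤ (b r : ℝ) - a r := by
        have : (a r : ℝ) + 1 ≤ b r := by exact_mod_cast hrlt
        linarith
      -- all other coordinates do not move
      have hother : ∀ i : Fin m, (i : ℕ) < K → i ≠ r → (b i : ℝ) - a i = 0 := by
        intro i hi hir
        have hsub : ({r, i} : Finset (Fin m)) ⊆ Finset.univ := Finset.subset_univ _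
        have h1 := Finset.sum_le_sum_of_subset_of_nonneg
          (f := fun i : Fin m => if (i : ℕ) < K then (b i : ℝ) - a i else 0) hsub
          (fun k _ _ => hterm k)
        rw [Finset.sum_pair (Ne.symm hir)] at h1
        simp only [if_pos hrP.1, if_pos hi] at h1
        have h2 : ∑ i : Fin m, (if (i : ℕ) < K then (b i : ℝ) - a i else 0) < 2 := hXlt
        have h3 : (b i : ℝ) - a i < 1 := by linarith
        have h4 : (b i : ℝ) < a i + 1 := by linarith
        have h5 : b i < a i + 1 := by exact_mod_cast h4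
        have h6 : b i = a i := le_antisymm (by omega) (hab i)
        rw [h6]
        ring
      have hrone : (b r : ℝ) - a r = 1 := by
        have h1 := Finset.single_le_sum
          (f := fun i : Fin m => if (i : ℕ) < K then (b i : ℝ) - a i else 0)
          (fun k _ => hterm k) (Finset.mem_univ r)
        simp only [if_pos hrP.1] at h1
        have h2 : ∑ i : Fin m, (if (i : ℕ) < K then (b i : ℝ) - a i else 0) < 2 := hXlt
        have h3 : (b r : ℝ) < a r + 2 := by linarith
        have h4 : b r < a r + 2 := by exact_mod_cast h3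
        have h5 : b r = a r + 1 := by omega
        rw [h5]
        push_cast
        ring
      -- the shape of the gap
      set h : ℝ := 1 / 2 ^ j with hh
      have hhpos : 0 < h := by positivity
      set D : E := (h / 2) • psum (fun i => (n i : ℝ) • v i) K with hD
      have hgapform : cut v n (s + h) b K - cut v n s a K = v r - (2 : ℝ) • D := by
        have e1 : (2 : ℝ) • D = h • psum (fun i => (n i : ℝ) • v i) K := by
          rw [hD, smul_smul]
          congr 1
          ring
        rw [e1]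
        unfold cut
        rw [← psum_sub, ← psum_smul]
        have e2 : v r = psum (fun i => (if i = r then (1 : ℝ) else 0) • v i) K := by
          unfold psum
          rw [Finset.sum_eq_single r]
          · simp [hrP.1]
          · intro i _ hir
            simp [hir]
          · simp
        rw [e2, ← psum_sub]
        refine psum_congr fun i hi => ?_
        rw [← sub_smul, smul_smul, ← sub_smul]
        congr 1
        by_cases hir : i = r
        · subst hir
          simp only [if_true]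
          linear_combination hrone
        · have := hother i hi hir
          simp only [if_neg hir]
          linear_combination this
      have hDnorm : ‖D‖ ≤ Yj n j / 4 := by
        have h1 : ‖psum (fun i => (n i : ℝ) • v i) K‖ ≤ psum (fun i => (n i : ℝ)) K := by
          refine norm_psum_le _ _ _ fun i _ => ?_
          rw [norm_smul, Real.norm_natCast]
          have := hv i
          have h0 : (0 : ℝ) ≤ n i := by positivity
          nlinarith
        rw [hD, norm_smul, Real.norm_of_nonneg (by positivity), hYeq, ← hpsumKR]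
        have h2 : (2 / 2 ^ j : ℝ) * psum (fun i => (n i : ℝ)) K / 4
            = h / 2 * psum (fun i => (n i : ℝ)) K := by
          rw [hh]
          ring
        rw [h2]
        exact mul_le_mul_of_nonneg_left h1 (by positivity)
      have hcostr : pcost v [r] = (1 / 4) * ‖v r‖ ^ 2 := rfl
      rw [hcostr, hgapform, norm_sub_sq_real, norm_smul, inner_smul_right]
      have h1 : inner ℝ (v r) D ≤ ‖D‖ := by
        have h2 := real_inner_le_norm (v r) D
        have h3 := hv r
        have h4 := norm_nonneg D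
        nlinarith
      have h5 : ‖(2 : ℝ)‖ = 2 := by norm_num
      rw [h5]
      nlinarith [norm_nonneg D]


lemma exists_mid_nat (a b : ℕ) (hab : a ≤ b) (e : ℝ) (h1 : Odd (a + b) → e = 1 ∨ e = -1)
    (h2 : ¬ Odd (a + b) → e = 0) :
    ∃ zz : ℕ, (zz : ℝ) = ((a : ℝ) + b + e) / 2 ∧ a ≤ zz ∧ zz ≤ b := by
  by_cases hodd : Odd (a + b)
  · obtain ⟨c, hc⟩ := hodd
    have hcr : (a : ℝ) + b = 2 * c + 1 := by exact_mod_cast hc
    rcases h1 ⟨c, hc⟩ with rfl | rfl
    · refine ⟨c + 1, ?_, by omega, by omega⟩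
      push_cast
      linarith
    · refine ⟨c, ?_, by omega, by omega⟩
      linarith
  · have h3 := h2 hodd
    subst h3
    obtain ⟨c, hc⟩ := Nat.not_odd_iff_even.1 hodd
    have hcr : (a : ℝ) + b = c + c := by exact_mod_cast hc
    refine ⟨c, ?_, by omega, by omega⟩
    linarith

lemma node (v : Fin m → E) (hv : ∀ i, ‖v i‖ ≤ 1) (n : Fin m → ℕ) (hn : Monotone n) (j : ℕ) (C : ℝ)
    (a b : Fin m → ℕ) (s s' t : ℝ) (hs : 0 ≤ s) (hs' : s' = s + 1 / 2 ^ j) (ht : t = (s + s') / 2)
    (hab : ∀ i, a i ≤ b i)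
    (hwa : ∀ i, 2 * 2 ^ j ≤ n i → |(a i : ℝ) - s * n i| ≤ 1)
    (hwb : ∀ i, 2 * 2 ^ j ≤ n i → |(b i : ℝ) - s' * n i| ≤ 1)
    (hbal : ∀ p, psum (fun i => (b i : ℝ) - a i) p ≤ (2 / 2 ^ j) * psum (fun i => (n i : ℝ)) p + 1)
    (hpa : ∀ p : ℕ, (∀ i : Fin m, n i < 4 * 2 ^ j → (i : ℕ) < p) →
      ‖cut v n s a p‖ ^ 2 ≤ C + (p : ℝ) / 4)
    (hpb : ∀ p : ℕ, (∀ i : Fin m, n i < 4 * 2 ^ j → (i : ℕ) < p) →
      ‖cut v n s' b p‖ ^ 2 ≤ C + (p : ℝ) / 4) :
    ∃ z : Fin m → ℕ, (∀ i, a i ≤ z i) ∧ (∀ i, z i ≤ b i) ∧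
      (∀ i, 2 * 2 ^ (j + 1) ≤ n i → |(z i : ℝ) - t * n i| ≤ 1) ∧
      (∀ p, psum (fun i => (z i : ℝ) - a i) p ≤ (2 / 2 ^ (j + 1)) * psum (fun i => (n i : ℝ)) p + 1) ∧
      (∀ p, psum (fun i => (b i : ℝ) - z i) p ≤ (2 / 2 ^ (j + 1)) * psum (fun i => (n i : ℝ)) p + 1) ∧
      (∀ p : ℕ, (∀ i : Fin m, n i < 4 * 2 ^ (j + 1) → (i : ℕ) < p) →
        ‖cut v n t z p‖ ^ 2 ≤ C + Mj n j + Yj n j + (p : ℝ) / 4) := by
  classical
  obtain ⟨K, hKm, hK⟩ := exists_cut (fun i : Fin m => n i < 4 * 2 ^ j)
    (fun i i' hii' h => lt_of_le_of_lt (hn hii') h)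
  obtain ⟨R, _, hR⟩ := exists_cut (fun i : Fin m => 2 * n i < 2 ^ j)
    (fun i i' hii' h => lt_of_le_of_lt (Nat.mul_le_mul_left 2 (hn hii')) h)
  have hhpos : (0 : ℝ) < 1 / 2 ^ j := by positivity
  obtain ⟨h, hh⟩ : ∃ h : ℝ, h = 1 / 2 ^ j := ⟨_, rfl⟩
  rw [← hh] at hhpos
  have hts : t = s + h / 2 := by rw [ht, hs', hh]; ring
  have ht0 : 0 ≤ t := by rw [hts]; positivity
  have hs'h : s' = s + h := by rw [hs', hh]
  have h2j : (0 : ℝ) < 2 ^ j := by positivity
  have hh2 : (2 / 2 ^ (j + 1) : ℝ) = h := by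
    rw [hh, pow_succ]
    field_simp
  have hh3 : (2 / 2 ^ j : ℝ) = 2 * h := by
    rw [hh]; ring
  set L := (List.finRange m).filter (fun i : Fin m => (i : ℕ) < K ∧ Odd (a i + b i)) with hL
  have hLsorted : L.Pairwise (· < ·) := (List.pairwise_lt_finRange m).filter _
  obtain ⟨ε, hε, hε1, hε2⟩ := pair_signs v L hLsorted
    ((1 / 2 : ℝ) • (cut v n s a K + cut v n s' b K))
  set e : Fin m → ℝ := fun i => if (i : ℕ) < K ∧ Odd (a i + b i) then ε i else 0 with he
  have hmid : ∀ i : Fin m, ∃ zz : ℕ, (i : ℕ) < K →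
      ((zz : ℝ) = ((a i : ℝ) + b i + e i) / 2 ∧ a i ≤ zz ∧ zz ≤ b i) := by
    intro i
    by_cases hi : (i : ℕ) < K
    · obtain ⟨zz, h1, h2, h3⟩ := exists_mid_nat (a i) (b i) (hab i) (e i)
        (by
          intro ho
          have : e i = ε i := by simp [he, hi, ho]
          rw [this]
          exact hε i)
        (by
          intro ho
          simp [he, ho])
      exact ⟨zz, fun _ => ⟨h1, h2, h3⟩⟩
    · exact ⟨0, fun h' => absurd h' hi⟩
  choose z0 hz0 using hmid
  obtain ⟨z, hz1, hz2, hz3⟩ := fast_round v hv n t ht0 z0 K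
  have hslow : ∀ i : Fin m, (i : ℕ) < K →
      ((z i : ℝ) = ((a i : ℝ) + b i + e i) / 2 ∧ a i ≤ z i ∧ z i ≤ b i) := by
    intro i hi
    rw [hz1 i hi]
    exact hz0 i hi
  have hfast : ∀ i : Fin m, K ≤ (i : ℕ) → 4 ≤ h * n i ∧ |(a i : ℝ) - s * n i| ≤ 1 ∧
      |(b i : ℝ) - s' * n i| ≤ 1 ∧ |(z i : ℝ) - t * n i| ≤ 1 := by
    intro i hi
    have h1 : ¬ n i < 4 * 2 ^ j := fun h' => absurd ((hK i).2 h') (by omega)
    have h2 : 4 * 2 ^ j ≤ n i := not_lt.1 h1
    have h3 : (4 : ℝ) * 2 ^ j ≤ n i := by exact_mod_cast h2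
    have h4 : 2 * 2 ^ j ≤ n i := by omega
    refine ⟨?_, hwa i h4, hwb i h4, ?_⟩
    · rw [hh]
      rw [div_mul_eq_mul_div, le_div_iff₀ h2j]
      linarith
    · have hτ : 0 ≤ t * n i := by positivity
      have h5 := Nat.floor_le hτ
      have h6 := Nat.lt_floor_add_one (t * n i)
      rw [abs_le]
      rcases hz2 i hi with h7 | h7 <;> rw [h7] <;> push_cast <;> constructor <;> linarith
  have hpe : ∀ q, |psum e q| ≤ 1 := by
    intro q
    have h1 := hε2 q
    have h2 : ((L.filter fun i : Fin m => (i : ℕ) < q).map ε).sum = psum e q := by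
      rw [sum_map_filter, hL, sum_map_filter, ← Fin.sum_univ_def]
      simp only [psum, he]
      refine Finset.sum_congr rfl fun i _ => ?_
      split_ifs <;> rfl
    rw [← h2]
    exact h1
  have hKp : ∀ p : ℕ, (∀ i : Fin m, n i < 4 * 2 ^ (j + 1) → (i : ℕ) < p) → K ≤ p := by
    intro p hp
    by_contra hcon
    push Not at hcon
    have hpm : p < m := lt_of_lt_of_le hcon hKm
    have h1 := (hK ⟨p, hpm⟩).1 hcon
    have h2 := hp ⟨p, hpm⟩ (by rw [pow_succ]; omega)
    simp at h2
  have hT : ∀ i, t * n i = s * n i + (h * n i) / 2 := by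
    intro i; rw [hts]; ring
  have hS : ∀ i, s' * n i = s * n i + h * n i := by
    intro i; rw [hs'h]; ring
  refine ⟨z, ?_, ?_, ?_, ?_, ?_, ?_⟩
  · intro i
    by_cases hi : (i : ℕ) < K
    · exact (hslow i hi).2.1
    · obtain ⟨h1, h2, h3, h4⟩ := hfast i (by omega)
      rw [abs_le] at h2 h4
      have h5 := hT i
      have : (a i : ℝ) ≤ z i := by linarith
      exact_mod_cast this
  · intro i
    by_cases hi : (i : ℕ) < K
    · exact (hslow i hi).2.2
    · obtain ⟨h1, h2, h3, h4⟩ := hfast i (by omega)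
      rw [abs_le] at h3 h4
      have h5 := hT i
      have h6 := hS i
      have : (z i : ℝ) ≤ b i := by linarith
      exact_mod_cast this
  · intro i hi
    have h1 : K ≤ (i : ℕ) := by
      by_contra hcon
      push Not at hcon
      have h2 := (hK i).1 hcon
      rw [pow_succ] at hi
      omega
    exact (hfast i h1).2.2.2
  · intro p
    rw [hh2, ← psum_mul]
    refine bal_of_split (K := K) ?_ ?_ p
    · intro i hi
      obtain ⟨h1, h2, h3, h4⟩ := hfast i hi
      rw [abs_le] at h2 h4
      have h5 := hT i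
      linarith
    · intro q hq
      have h5 : psum (fun i => (z i : ℝ) - a i) q
          = (1 / 2) * psum (fun i => (b i : ℝ) - a i) q + (1 / 2) * psum e q := by
        rw [← psum_mul, ← psum_mul, ← psum_add]
        refine psum_congr fun i hi => ?_
        rw [(hslow i (by omega)).1]
        ring
      rw [h5, psum_mul]
      have h6 := hbal q
      rw [hh3] at h6
      have h7 := (abs_le.1 (hpe q)).2
      linarith
  · intro p
    rw [hh2, ← psum_mul]
    refine bal_of_split (K := K) ?_ ?_ p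
    · intro i hi
      obtain ⟨h1, h2, h3, h4⟩ := hfast i hi
      rw [abs_le] at h3 h4
      have h5 := hT i
      have h6 := hS i
      linarith
    · intro q hq
      have h5 : psum (fun i => (b i : ℝ) - z i) q
          = (1 / 2) * psum (fun i => (b i : ℝ) - a i) q - (1 / 2) * psum e q := by
        rw [← psum_mul, ← psum_mul, ← psum_sub]
        refine psum_congr fun i hi => ?_
        rw [(hslow i (by omega)).1]
        ring
      rw [h5, psum_mul]
      have h6 := hbal q
      rw [hh3] at h6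
      have h7 := (abs_le.1 (hpe q)).1
      linarith
  · intro p hp
    have hKle := hKp p hp
    have h1 := hz3 p hKle
    have h2 := cut_mid v n s s' t ht a b z e K (fun i hi => (hslow i hi).1)
    have h3 : psum (fun i => e i • v i) K = (L.map fun i => ε i • v i).sum := by
      rw [hL, sum_filter_finRange]
      unfold psum
      refine Finset.sum_congr rfl fun i _ => ?_
      simp only [he]
      by_cases hi : (i : ℕ) < K
      · by_cases ho : Odd (a i + b i)
        · simp [hi, ho]
        · simp [hi, ho]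
      · simp [hi]
    rw [h3] at h2
    have h4 : ‖cut v n t z K‖ ^ 2 ≤ ‖(1 / 2 : ℝ) • (cut v n s a K + cut v n s' b K)‖ ^ 2 + pcost v L := by
      rw [h2]
      exact hε1
    have h5 := parallelogram_half (cut v n s a K) (cut v n s' b K)
    have h6 := hpa K (fun i hi => (hK i).2 hi)
    have h7 := hpb K (fun i hi => (hK i).2 hi)
    have h8 := node_cost v hv n j K R hK hR a b hab s (hbal R)
    rw [← hs'] at h8
    linarith

end Vale.Agent.Lib.P262.FT
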